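import Vale.Agent.P014Y.F.Qx.Fg

/-! # P014Y, frame: the unramified points of the formal group at the odd prime (row FR) -/

set_option autoImplicit false
set_option linter.all false

open NumberField Polynomial Finset
open scoped Classical

noncomputable section

namespace Vale.Agent.P014Y.F.Qx

open Vale.Agent.P022 P004K P014U
open P004M.TE (Pt ga)
open P004F.Qx (zf Fk Ur unv)
open P004F.Qx.Fg hiding abs1 abs2 nb teich

variable [Pp]

/-- **the unramified points of the formal group are free of rank one** over the group ring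
of `⟨φ⟩ / ⟨φ ^ f⟩`, modulo every power of `pp` -/
def FR : Prop := ∀ (A B : ℤ), 4 * A ^ 3 + 27 * B ^ 2 ≠ 0 → ∀ P : Ideal (𝓞 Qb), P.IsPrime →
  (pp : 𝓞 Qb) ∈ P → ∀ κ : ℕ, κ ≠ 0 → pp ∣ κ → ∀ φ : GQ, (∀ x : 𝓞 Qb, φ • x - x ^ pp ∈ P) →
  ∀ f : ℕ, 0 < f → ∃ e : Pt A B, Fk P κ e ∧ Ur P e ∧ ga (φ ^ f) e = e ∧
    ¬ Zp P (∑ i ∈ Finset.range f, (φ ^ i) (zf e / κ)) ∧
    (∀ (k : ℕ) (n : ℕ → ℤ) (w : Pt A B), Fk P κ w →
      ∑ i ∈ Finset.range f, n i • ga (φ ^ i) e = pp ^ k • w → ∀ i < f, (pp : ℤ) ^ k ∣ n i) ∧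
    ∀ (k : ℕ) (y v : Pt A B), Fk P κ y → Ur P y → Fk P κ v → ga (φ ^ f) y - y = pp ^ k • v →
      ∃ (n : ℕ → ℤ) (w : Pt A B), Fk P κ w ∧ Ur P w ∧
        y = ∑ i ∈ Finset.range f, n i • ga (φ ^ i) e + pp ^ k • w ∧
        (0 < k → Zp P (zf y / κ - ∑ i ∈ Finset.range f, n i * (φ ^ i) (zf e / κ)))

section abs

variable {G k : Type} [AddCommGroup G] [AddCommGroup k] (c : G →+ k) (E : ℕ → G) (f : ℕ)
  (h2 : ∀ y, c (pp • y) = 0) (ht : ∀ y : G, pp • y = 0 → y = 0)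
include h2 ht

theorem abs1 (hi : ∀ n : ℕ → ℤ, c (∑ i ∈ range f, n i • E i) = 0 → ∀ i < f, (pp : ℤ) ∣ n i) (m : ℕ) :
    ∀ (n : ℕ → ℤ) (w : G), ∑ i ∈ range f, n i • E i = pp ^ m • w → ∀ i < f, (pp : ℤ) ^ m ∣ n i := by
  induction m with
  | zero => simp
  | succ m ih =>
    intro n w h i hf
    rw [pow_succ', mul_nsmul'] at h
    have a := hi n (h ▸ h2 _)
    have e : ∑ i ∈ range f, n i • E i = pp • ∑ i ∈ range f, (n i / pp) • E i := by
      rw [smul_sum]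
      refine sum_congr rfl fun i hi => ?_
      rw [← natCast_zsmul, smul_smul, Int.mul_ediv_cancel' (a i (mem_range.1 hi))]
    rw [← Int.mul_ediv_cancel' (a i hf), pow_succ']
    exact mul_dvd_mul_left _ (ih (fun i => n i / pp) w (sub_eq_zero.1 (ht _ (by
      rw [nsmul_sub, ← e, h, sub_self]))) i hf)

theorem abs2 (U : AddSubgroup G) (F : G →+ G) (hE : ∀ i, E i ∈ U ∧ F (E i) = E i)
    (hh : ∀ y ∈ U, c y = 0 → ∃ w ∈ U, pp • w = y)
    (hs : ∀ y, c (F y) = c y → ∃ n : ℕ → ℤ, c y = c (∑ i ∈ range f, n i • E i)) (m : ℕ) :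
    ∀ y ∈ U, ∀ v, F y - y = pp ^ m • v →
      ∃ n : ℕ → ℤ, ∃ w ∈ U, y = ∑ i ∈ range f, n i • E i + pp ^ m • w := by
  induction m with
  | zero => exact fun y hy _ _ => ⟨0, y, hy, by simp⟩
  | succ m ih =>
    intro y hy v h
    rw [pow_succ', mul_nsmul'] at h
    obtain ⟨n, hn⟩ := hs y (by rw [← sub_eq_zero, ← map_sub, h, h2])
    obtain ⟨w, hw, e⟩ := hh _ (U.sub_mem hy (U.sum_mem fun i _ => U.zsmul_mem (hE i).1 (n i)))
      (by rw [map_sub, hn, sub_self])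
    obtain ⟨n', w', hw', e'⟩ := ih w hw v (sub_eq_zero.1 (ht _ (by
      rw [nsmul_sub, nsmul_sub, ← map_nsmul, e, ← h, map_sub, map_sum]
      simp [fun i => (hE i).2])))
    refine ⟨n + pp • n', w', hw', ?_⟩
    rw [eq_add_of_sub_eq e.symm, e', pow_succ', mul_nsmul', nsmul_add, smul_sum]
    simp only [Pi.add_apply, Pi.smul_apply, add_smul, sum_add_distrib, smul_assoc]
    abel

end abs

/-- normal bases -/
theorem nb {f : ℕ} (hf : 0 < f) (k : Type) [Field k] [IsAlgClosed k] [CharP k pp] : ∃ β : k,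
    β ^ pp ^ f = β ∧ (∀ n : ℕ → ℤ, ∑ i ∈ range f, n i * β ^ pp ^ i = 0 → ∀ i < f, (pp : ℤ) ∣ n i) ∧
    ∀ t : k, t ^ pp ^ f = t → ∃ n : ℕ → ℤ, t = ∑ i ∈ range f, n i * β ^ pp ^ i := by
  let _ : Algebra (ZMod pp) k := ZMod.algebra k pp
  have hr := GaloisField.finrank pp hf.ne'
  have hc := GaloisField.card pp f hf.ne'
  have _ := Fintype.ofFinite (GaloisField pp f)
  rw [Nat.card_eq_fintype_card] at hc
  let ι : GaloisField pp f →ₐ[ZMod pp] k := IsAlgClosed.lift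
  let b := (IsGalois.normalBasis (ZMod pp) (GaloisField pp f)).reindex ((Equiv.ofBijective _
    (FiniteField.bijective_frobeniusAlgEquivOfAlgebraic_pow (ZMod pp) (GaloisField pp f))).symm.trans
      (finCongr hr))
  obtain ⟨β, hb⟩ : ∃ β, ∀ i : Fin f, b i = β ^ pp ^ i.1 := ⟨_, fun i => by
    simp only [b, Module.Basis.reindex_apply]
    rw [IsGalois.normalBasis_apply]
    simp [AlgEquiv.coe_pow, FiniteField.coe_frobeniusAlgEquivOfAlgebraic_iterate]
    rfl⟩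
  have s : ∀ n : ℕ → ℤ, ∑ i ∈ range f, n i * ι β ^ pp ^ i =
      ι (∑ i : Fin f, (n i : ZMod pp) • b i) := fun n => by
    simp only [map_sum, hb, Int.cast_smul_eq_zsmul, zsmul_eq_mul, map_mul, map_intCast, map_pow]
    exact (Fin.sum_univ_eq_sum_range (fun i => n i * ι β ^ pp ^ i) f).symm
  refine ⟨ι β, by rw [← map_pow, ← hc, FiniteField.pow_card], fun n h i hi => ?_, fun t ht => ?_⟩
  · rw [s, map_eq_zero] at h
    exact (ZMod.intCast_zmod_eq_zero_iff_dvd _ pp).1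
      (Fintype.linearIndependent_iff.1 b.linearIndependent _ h ⟨i, hi⟩)
  · obtain ⟨a, -, rfl⟩ := lift_root (ι : GaloisField pp f →+* k) (Nat.one_lt_pow hf.ne' one_lt)
      (by simpa [hc] using FiniteField.splits_X_pow_card_sub_X pp (K := GaloisField pp f)) ht
    refine ⟨fun i => if h : i < f then (b.repr a ⟨i, h⟩).cast else 0, ?_⟩
    rw [s]
    simp

theorem teich {Γ : Type} [LinearOrderedCommGroupWithZero Γ] {v : Valuation Qb Γ} (h2 : v pp < 1)
    {f : ℕ} (hf : 0 < f) {a b : Qb} (ha : a ^ pp ^ f = a) (hb : b ^ pp ^ f = b) (k : v b ≤ 1)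
    (h : v (a - b) < 1) : a = b := by
  have k' : v a ≤ 1 := sub_add_cancel a b ▸ v.map_add_le h.le k
  have m : ∀ {x y : Qb}, v x ≤ 1 → v y < 1 → v (y * x) < 1 := fun p q => by
    rw [map_mul]; exact mul_lt_one_of_lt_of_le q p
  have s : ∀ i, v (a ^ i - b ^ i) < 1 := fun i => by
    induction i with
    | zero => simp
    | succ i ih =>
      rw [show a ^ (i + 1) - b ^ (i + 1) = (a ^ i - b ^ i) * a + (a - b) * b ^ i by ring]
      exact v.map_add_lt (m k' ih) (m (P179W.val_pow_le_one k i) h)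
  by_contra ne
  have e := geom_sum₂_mul a b (pp ^ f)
  rw [ha, hb, mul_eq_right₀ (sub_ne_zero.2 ne)] at e
  have e' : (1 : Qb) = ∑ i ∈ range (pp ^ f), (a ^ i - b ^ i) * b ^ (pp ^ f - 1 - i) +
      pp * (pp ^ (f - 1) * b ^ (pp ^ f - 1)) := by
    rw [← mul_assoc, ← pow_succ', Nat.sub_add_cancel hf, ← Nat.cast_pow, ← geom_sum₂_self,
      ← sum_add_distrib, ← e]
    exact sum_congr rfl fun i _ => by ring
  have : v 1 < 1 := by
    rw [e']
    exact v.map_add_lt (v.map_sum_lt one_ne_zero fun i _ => m (P179W.val_pow_le_one k _) (s i))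
      (m (P179W.val_mul_le_one (P179W.val_pow_le_one (vn _) _) (P179W.val_pow_le_one k _)) h2)
  simp at this

/-- row FR -/
theorem fr : FR := by
  intro A B hD P hP h2 κ hκ d2 φ hφ f hf
  have h0 := ne_bot pp_ne h2
  obtain ⟨O, hO⟩ := ex_O hP h0
  obtain ⟨-, -, -, -, bij, fk⟩ := fg A B hD P hP h0
  obtain ⟨sub, -, dbl⟩ := fk κ hκ
  replace dbl := dbl d2
  have κ0 : (κ : Qb) ≠ 0 := Nat.cast_ne_zero.2 hκ
  have v2 : O.valuation pp < 1 := (hO.mem hP pp).2 h2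
  have io : ∀ {a}, Ip P a ↔ a ∈ O := fun {a} => (hO.ip a).trans (O.valuation_le_one_iff a)
  let k := AlgebraicClosure (IsLocalRing.ResidueField O)
  let ρ : O →+* k := (algebraMap _ k).comp (IsLocalRing.residue O)
  have hρ : ∀ a b : O, ρ a = ρ b ↔ Zp P (a - b) := fun a b => by
    rw [← sub_eq_zero, ← map_sub, RingHom.comp_apply, map_eq_zero, IsLocalRing.residue_eq_zero_iff,
      ValuationSubring.valuation_lt_one_iff, hO.zp]
    rfl
  have c2 : (pp : k) = 0 := by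
    simpa using (hρ pp 0).2
      ((hO.zp _).2 (by rw [ZeroMemClass.coe_zero, sub_zero]; exact v2))
  have : CharP k pp := (CharP.charP_iff_prime_eq_zero pp_prime).2 c2
  obtain ⟨β, b1, b2, b3⟩ := nb hf k
  obtain ⟨θ, t1, rfl⟩ := lift_root ρ (Nat.one_lt_pow hf.ne' one_lt) (Splits.of_splits_map_of_injective
    (i := O.subtype) Subtype.val_injective (IsAlgClosed.splits _) fun a ha => by
      have e : a ^ pp ^ f = a := by simpa [sub_eq_zero] using isRoot_of_mem_roots ha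
      refine ⟨⟨a, (O.valuation_le_one_iff a).1 (not_lt.1 fun h => ?_)⟩, rfl⟩
      have := pow_lt_pow_right₀ h (Nat.one_lt_pow hf.ne' one_lt)
      rw [← map_pow, ← map_pow, e, pow_one] at this
      exact this.false) b1
  have t2 : (θ : Qb) ^ pp ^ f = θ := congrArg Subtype.val t1
  have tg : ∀ (g : GQ) (e : ℕ), (∀ x : 𝓞 Qb, g • x - x ^ e ∈ P) → g θ = θ ^ e := fun g e h =>
    teich v2 hf (by rw [← map_pow, t2]) (by rw [← pow_mul, mul_comm, pow_mul, t2])
      (P179W.val_pow_le_one (O.valuation_le_one θ) e) ((hO.zp _).1 (frob hP h (io.2 θ.2)))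
  have tφ := fun i => tg _ _ (frob_pow hφ i)
  have dφ := (Dc.of hP pp_ne hφ).pow
  have dI : ∀ {g : GQ}, (∀ x : 𝓞 Qb, g • x - x ∈ P) → Dc P g := fun h =>
    Dc.of hP one_ne_zero (by simpa using h)
  have fix : ∀ {g : GQ} {y : Pt A B}, Dc P g → K1 P y → g (zf y) = zf y → ga g y = y :=
    fun a b e => inj ((hO.k1 _).1 (a.k1 b)) ((hO.k1 _).1 b) ((zf_ga _ _).trans e)
  obtain ⟨e, ⟨e1, e2⟩, -⟩ := bij (κ * θ) ((hO.zp _).2 (by
    obtain ⟨m, rfl⟩ := d2
    rw [Nat.cast_mul, map_mul, map_mul, mul_assoc]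
    exact mul_lt_one_of_lt_of_le v2 (mul_le_one' (vn m) (O.valuation_le_one θ))))
  have e3 : zf e / κ = θ := by rw [e2, mul_div_cancel_left₀ _ κ0]
  have e4 : Fk P κ e := ⟨e1, e3 ▸ io.2 θ.2⟩
  have e5 : ∀ i, zf (ga (φ ^ i) e) = κ * θ ^ pp ^ i := fun i => by
    rw [zf_ga, e2, map_mul, map_natCast, tφ]
  let G : AddSubgroup (Pt A B) := .ofSub {y | Fk P κ y} ⟨e, e4⟩ fun x a y b =>
    sub_eq_add_neg x y ▸ (sub x y a b).1
  let c : G →+ k := .ofMapSub (fun y => ρ ⟨zf y.1 / κ, io.1 y.2.2⟩) fun x y => by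
    rw [← map_sub, hρ]
    exact (sub _ _ x.2 y.2).2
  have hc : ∀ y : G, c y = ρ ⟨zf y.1 / κ, io.1 y.2.2⟩ := fun _ => rfl
  let E : ℕ → G := fun i => ⟨ga (φ ^ i) e, (dφ i).fk e4⟩
  let U : AddSubgroup G := .ofSub {y | Ur P y.1} ⟨0, fun g _ => map_zero _⟩ fun x a y b g h => by
    rw [← sub_eq_add_neg, AddSubgroup.coe_sub, map_sub, a g h, b g h]
  let F : G →+ G := ((ga (φ ^ f)).comp G.subtype).codRestrict G fun y => (dφ f).fk y.2
  have hS : ∀ n : ℕ → ℤ, c (∑ i ∈ range f, n i • E i) = ∑ i ∈ range f, n i * ρ θ ^ pp ^ i :=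
    fun n => by
      rw [map_sum]
      refine sum_congr rfl fun i _ => ?_
      rw [map_zsmul, zsmul_eq_mul, ← map_pow, hc]
      congr 2
      exact Subtype.ext ((congrArg (· / (κ : Qb)) (e5 i)).trans (mul_div_cancel_left₀ _ κ0))
  have h2c : ∀ y, c (pp • y) = 0 := fun y => by rw [map_nsmul, nsmul_eq_mul, c2, zero_mul]
  have ht : ∀ y : G, pp • y = 0 → y = 0 := fun y h =>
    Subtype.ext (((dbl y).1 y.2).2 (congrArg Subtype.val h))
  have hE : ∀ i, E i ∈ U ∧ F (E i) = E i := fun i =>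
    ⟨fun g h => fix (dI h) (E i).2.1 (by
      simp only [E, e5, map_mul, map_natCast, map_pow, tg g 1 (by simpa using h), pow_one]),
    Subtype.ext (fix (dφ f) (E i).2.1 (by
      simp only [E, AddSubgroup.subtype_apply, e5, map_mul, map_natCast, map_pow, tφ, t2]))⟩
  have cv : ∀ n : ℕ → ℤ, ((∑ i ∈ range f, n i • E i : G) : Pt A B) =
      ∑ i ∈ range f, n i • ga (φ ^ i) e := fun n => map_sum G.subtype _ _
  refine ⟨e, e4, fun g h => fix (dI h) e1 (by
      rw [e2, map_mul, map_natCast, tg g 1 (by simpa using h), pow_one]),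
    fix (dφ f) e1 (by rw [e2, map_mul, map_natCast, tφ, t2]), fun h => ?_, fun m n w hw h => ?_,
    fun m y v hy hu hv h => ?_⟩
  · have := (hρ (∑ i ∈ range f, θ ^ pp ^ i) 0).2 (by simpa [e3, tφ] using h)
    exact absurd (b2 1 (by simpa using this) 0 hf) fun z =>
      one_lt.ne' (Nat.dvd_one.1 (Int.natCast_dvd_natCast.1 z))
  · exact abs1 c E f h2c ht (fun n h => b2 n (hS n ▸ h)) m n ⟨w, hw⟩ (Subtype.ext ((cv n).trans h))
  obtain ⟨n, w, hw, e⟩ := abs2 c E f h2c ht U F hE (fun y hy h => by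
      obtain ⟨w, a, b, -⟩ := (dbl y).2 ⟨y.2.1, by
        rw [Nat.cast_mul, mul_comm, ← div_div]
        refine unv pp P pp_prime hP h2 _ (fun g hg => ?_) ?_
        · rw [map_div₀, map_natCast, ← zf_ga, hy g hg]
        · simpa using (hρ _ 0).1 (h.trans (map_zero ρ).symm)⟩
      refine ⟨⟨w, a⟩, fun g hg => ?_, Subtype.ext b⟩
      refine sub_eq_zero.1 (((dbl _).1 (sub _ _ ((dI hg).fk a) a).1).2 ?_)
      rw [nsmul_sub, ← map_nsmul, b, hy g hg, sub_self])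
    (fun y h => by
      simp only [hS]
      refine b3 _ (Eq.trans ?_ h)
      rw [hc, hc, ← map_pow, eq_comm, hρ]
      have := frob hP (frob_pow hφ f) y.2.2
      rwa [map_div₀, map_natCast, ← zf_ga] at this) m ⟨y, hy⟩ hu ⟨v, hv⟩ (Subtype.ext h)
  refine ⟨n, w, w.2, hw, (congrArg Subtype.val e).trans (congrArg (· + _) (cv n)), fun hm => ?_⟩
  have := congrArg c e
  rw [map_add, hS, ← Nat.sub_add_cancel hm, pow_succ', mul_nsmul', h2c, add_zero, hc] at this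
  have := (hρ _ (∑ i ∈ range f, n i * θ ^ pp ^ i)).1 (this.trans (by simp))
  rw [AddSubmonoidClass.coe_finsetSum] at this
  simp only [e3, tφ]
  exact this

end Vale.Agent.P014Y.F.Qx
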