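import Vale.Agent.P004F.Ix.Idx
import Vale.Agent.P014Y.F.Qx.Fr

/-! # P014Y, frame: the formal group has finite index (row IDX) -/

set_option linter.all false

open NumberField Polynomial WeierstrassCurve.Affine
open scoped Classical

noncomputable section

namespace Vale.Agent.P014Y.F.Qx

open Vale.Agent.P022 P004K P179W P014U
open Vale.Agent.P022E.GW (Ov Fb)
open P004M.TE (Pt ga Cv)
open P004F.Qx (zf Fk Ur unv)
open P004F.Qx.Fg hiding abs1 abs2 nb teich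
open P004F.Ix (near res)

variable [Pp]

section val

variable {Γ : Type} [LinearOrderedCommGroupWithZero Γ] {v : Valuation Qb Γ}

/-- finitely many classes -/
theorem cls {R : Set Qb} {q : ℕ} (hq : 1 < q) (h1 : ∀ a ∈ R, v (a ^ q - a) < 1)
    (h2 : ∀ a ∈ R, ∀ b ∈ R, v (a - b) < 1 → (a - b) / pp ∈ R) (M : ℕ) :
    ∃ T : Set Qb, T.Finite ∧ ∀ a ∈ R, ∃ t ∈ T, v (a - t) < v pp ^ M := by
  obtain ⟨T, f, hT⟩ := res (v := v) hq
  let r : Qb → Qb := fun t => if h : ∃ a ∈ R, v (a - t) < 1 then h.choose else 0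
  have hr : ∀ a ∈ R, ∃ s ∈ r '' T, s ∈ R ∧ v (a - s) < 1 := fun a ha => by
    obtain ⟨t, ht, h⟩ := hT a (h1 a ha)
    have k : ∃ a ∈ R, v (a - t) < 1 := ⟨a, ha, h⟩
    refine ⟨_, ⟨t, ht, dif_pos k⟩, k.choose_spec.1, ?_⟩
    rw [← sub_sub_sub_cancel_right a _ t]
    exact v.map_sub_lt h k.choose_spec.2
  induction M with
  | zero => exact ⟨T, f, fun a ha => by simpa using hT a (h1 a ha)⟩
  | succ M ih =>
    obtain ⟨T', f', h'⟩ := ih
    refine ⟨_, (f.image r).image2 (fun s t : Qb => s + pp * t) f', fun a ha => ?_⟩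
    obtain ⟨s, hs, k1, k2⟩ := hr a ha
    obtain ⟨t, ht, k3⟩ := h' _ (h2 a ha s k1 k2)
    refine ⟨_, Set.mem_image2_of_mem hs ht, ?_⟩
    have p0 : (pp : Qb) ≠ 0 := Nat.cast_ne_zero.2 pp_ne
    rw [show a - (s + pp * t) = pp * ((a - s) / pp - t) by field_simp; ring, map_mul, pow_succ']
    exact mul_lt_mul_of_pos_left k3 (v.pos_iff.2 p0)

theorem p_le (ho : ∀ m : ℤ, ¬ (pp : ℤ) ∣ m → v m = 1) {D : ℤ} (h : D ≠ 0) :
    ∃ M : ℕ, v pp ^ M ≤ v D := by
  obtain ⟨M, m, hm, rfl⟩ := WfDvdMonoid.max_power_factor h (Nat.prime_iff_prime_int.1 pp_prime).irreducible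
  exact ⟨M, by rw [Int.cast_mul, map_mul, ho m hm, mul_one]; simp⟩

end val

/-- row IDX -/
theorem idx : ∀ (A B : ℤ), 4 * A ^ 3 + 27 * B ^ 2 ≠ 0 → ∀ P φ, Ov pp P → Fb pp P φ →
    ∀ κ f : ℕ, κ ≠ 0 → f ≠ 0 → ∃ n : ℕ, n ≠ 0 ∧
      ∀ y : Pt A B, Ur P y → ga (φ ^ f) y = y → Fk P κ (n • y) := by
  intro A B hD P φ ⟨_, hP, h2⟩ hφ κ f hκ hf
  obtain ⟨O, hO⟩ := ex_O hP (ne_bot pp_ne h2)
  obtain ⟨-, -, -, -, -, fk⟩ := fg A B hD P hP (ne_bot pp_ne h2)
  have v2 : O.valuation pp < 1 := (hO.mem hP pp).2 h2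
  have ho : ∀ m : ℤ, ¬ (pp : ℤ) ∣ m → O.valuation m = 1 := fun m hm => le_antisymm (vi m) (not_lt.1
    fun k => hm ((int_mem hP pp_prime h2 m).1 ((hO.mem hP m).1 k)))
  let R : Set Qb := {a | (∀ g : GQ, (∀ x : 𝓞 Qb, g • x - x ∈ P) → g a = a) ∧ (φ ^ f) a = a ∧
    O.valuation a ≤ 1}
  obtain ⟨M, hM⟩ := p_le ho (D := 2 * (4 * A ^ 3 + 27 * B ^ 2)) (mul_ne_zero two_ne_zero hD)
  obtain ⟨N, hN⟩ := p_le ho (D := κ) (Nat.cast_ne_zero.2 hκ)
  rw [Int.cast_mul, Int.cast_ofNat] at hM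
  obtain ⟨T, fT, hT⟩ := cls (v := O.valuation) (R := R) (Nat.one_lt_pow hf one_lt)
    (fun a ha => by
      rw [Valuation.map_sub_swap, ← hO.zp]
      simpa only [ha.2.1] using frob hP (frob_pow hφ f) ((hO.ip a).2 ha.2.2))
    (fun a ha b hb h => ⟨fun g hg => by rw [map_div₀, map_sub, ha.1 g hg, hb.1 g hg, map_natCast],
      by rw [map_div₀, map_sub, ha.2.1, hb.2.1, map_natCast], (hO.ip _).1 (unv pp P pp_prime hP
        h2 _ (fun g hg => by rw [map_sub, ha.1 g hg, hb.1 g hg]) ((hO.zp _).2 h))⟩) M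
  choose! c hc using hT
  let G : AddSubgroup (Pt A B) := .ofSub {y | Ur P y ∧ ga (φ ^ f) y = y}
    ⟨0, fun g _ => map_zero _, map_zero _⟩ fun x a y b =>
      ⟨fun g hg => by rw [map_add, map_neg, a.1 g hg, b.1 g hg],
        by rw [map_add, map_neg, a.2, b.2]⟩
  let H : AddSubgroup (Pt A B) := .ofSub {y | KerV O.valuation y} ⟨0, trivial⟩ fun x a y b =>
    kerV_add cf a (kerV_neg.2 b)
  have fx : ∀ {g : GQ} {x y h}, ga g (.some x y h : Pt A B) = .some x y h → g x = x ∧ g y = y :=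
    fun e => by rw [P004M.TE.ga_some] at e; simpa using e
  let cl : Pt A B → Option (Qb × Qb) := fun y => match y with
    | .zero => none
    | .some x y _ => if O.valuation x ≤ 1 then some (c x, c y) else none
  have mR : ∀ {x y h}, (.some x y h : Pt A B) ∈ G → O.valuation x ≤ 1 → x ∈ R ∧ y ∈ R :=
    fun k a => ⟨⟨fun g hg => (fx (k.1 g hg)).1, (fx k.2).1, a⟩,
      fun g hg => (fx (k.1 g hg)).2, (fx k.2).2, y_int cf (by assumption : Nonsingular ..).1 a⟩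
  have c0 : ∀ y, cl y = none → y ∈ H := by
    rintro (_ | ⟨x, y, h⟩) e
    · trivial
    · exact fun a => Option.some_ne_none _ ((if_pos a).symm.trans e)
  have c1 : ∀ y ∈ G, ∀ y' ∈ G, cl y = cl y' → y - y' ∈ H := by
    intro y a y' b e
    by_cases n : cl y = none
    · exact H.sub_mem (c0 y n) (c0 y' (e ▸ n))
    have n' : cl y' ≠ none := e ▸ n
    rcases y with _ | ⟨x₁, y₁, h₁⟩
    · exact absurd rfl n
    rcases y' with _ | ⟨x₂, y₂, h₂⟩
    · exact absurd rfl n'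
    have a₁ : O.valuation x₁ ≤ 1 := by_contra fun k => n (if_neg k)
    have a₂ : O.valuation x₂ ≤ 1 := by_contra fun k => n' (if_neg k)
    simp only [cl, if_pos a₁, if_pos a₂, Option.some.injEq, Prod.mk.injEq] at e
    have s : ∀ {s t}, s ∈ R → t ∈ R → c s = c t → O.valuation (s - t) < O.valuation pp ^ M :=
      fun {s t} hs ht e => by
        rw [← sub_sub_sub_cancel_right s t (c t)]
        exact O.valuation.map_sub_lt (e ▸ (hc s hs).2) (hc t ht).2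
    exact near h₁ h₂ a₁ a₂ rfl ((s (mR a a₁).1 (mR b a₂).1 e.1).trans_le hM)
      ((s (mR a a₁).2 (mR b a₂).2 e.2).trans_le hM)
  have c2 : (cl '' G).Finite := by
    refine (((fT.prod fT).image some).insert none).subset ?_
    rintro _ ⟨_ | ⟨x, y, h⟩, a, rfl⟩
    · exact .inl rfl
    by_cases k : O.valuation x ≤ 1
    · exact .inr ⟨(c x, c y), ⟨(hc x (mR a k).1).1, (hc y (mR a k).2).1⟩, (if_pos k).symm⟩
    · exact .inl (if_neg k)
  have := c2.to_subtype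
  have fin : Finite (G ⧸ H.addSubgroupOf G) := Finite.of_injective
    (fun z => (⟨cl z.out, z.out, z.out.2, rfl⟩ : cl '' G)) fun z z' e => by
      rw [← z.out_eq, ← z'.out_eq]
      refine (QuotientAddGroup.eq_iff_sub_mem).2 ?_
      exact c1 _ z.out.2 _ z'.out.2 (congrArg Subtype.val e)
  refine ⟨pp ^ N * (H.addSubgroupOf G).index, mul_ne_zero (pow_ne_zero _ pp_ne)
    AddSubgroup.index_ne_zero_of_finite, fun y a b => ?_⟩
  have k1 : KerV O.valuation ((H.addSubgroupOf G).index • y) :=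
    AddSubgroup.mem_addSubgroupOf.1 ((H.addSubgroupOf G).nsmul_index_mem ⟨y, a, b⟩)
  have k2 := (G.nsmul_mem (x := y) ⟨a, b⟩ (H.addSubgroupOf G).index).1
  rw [mul_smul]
  generalize (H.addSubgroupOf G).index • y = w at k1 k2
  have k3 : ∀ i : ℕ, Fk P (pp ^ (i + 1)) (pp ^ i • w) := fun i => by
    induction i with
    | zero =>
      rw [pow_zero, one_smul, zero_add, pow_one]
      exact ⟨(hO.k1 _).2 k1, unv pp P pp_prime hP h2 _
        (fun g hg => by rw [← zf_ga, k2 g hg]) ((hO.zp _).2 (ker k1).1)⟩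
    | succ i ih =>
      rw [pow_succ' pp (i + 1), show pp ^ (i + 1) • w = pp • pp ^ i • w by rw [pow_succ', mul_smul]]
      exact (((fk _ (pow_ne_zero _ pp_ne)).2.2 (dvd_pow_self pp i.succ_ne_zero) _).1 ih).1
  have k4 := (hO.fk (pow_ne_zero _ pp_ne) _).1 (k3 N)
  refine (hO.fk hκ _).2 ⟨k4.1, k4.2.trans (le_trans ?_ hN)⟩
  rw [Nat.cast_pow, map_pow]
  exact pow_le_pow_right_of_le_one' v2.le N.le_succ

end Vale.Agent.P014Y.F.Qx
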