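import Vale.Agent.P004F.Qx.Fr
import Vale.Agent.P014U.Bx.Fg

/-! # P014Y, frame: the formal group at the odd prime (row FG) -/

set_option autoImplicit false
set_option linter.all false

open NumberField Polynomial WeierstrassCurve.Affine
open scoped Classical

noncomputable section

namespace Vale.Agent.P014Y.F.Qx

open Vale.Agent.P022 P004K P004H.H666 P179W P014U
open P004M.TE (Pt ga Cv exists_pt xp_eq)
open P004F.Qx (zf Fk Ur)
open P004F.Qx.Fg

section val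

variable {Γ : Type} [LinearOrderedCommGroupWithZero Γ] {v : Valuation Qb Γ} {A B : ℤ}

theorem zf0 : zf (0 : Pt A B) = 0 := rfl

theorem nsm {Q : Pt A B} (h : KerV v Q) (n : ℕ) : KerV v (n • Q) ∧ v (zf (n • Q)) ≤ v (zf Q) ∧
    v (zf (n • Q) - n * zf Q) ≤ v (zf Q) ^ 3 := by
  induction n with
  | zero => exact ⟨by rw [zero_nsmul]; trivial, by simp [zf0], by simp [zf0]⟩
  | succ n ih =>
    obtain ⟨a, b, c⟩ := ih
    have := add_le a h b le_rfl
    rw [succ_nsmul]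
    refine ⟨kerV_add cf a h, this.1, ?_⟩
    rw [show zf (n • Q + Q) - (n + 1 : ℕ) * zf Q =
      zf (n • Q + Q) - (zf (n • Q) + zf Q) + (zf (n • Q) - n * zf Q) by push_cast; ring]
    exact v.map_add_le this.2 c

theorem vmul {Q : Pt A B} (h : KerV v Q) {m : ℕ} (k : v (zf Q) ^ 2 < v m) :
    v (zf (m • Q)) = v m * v (zf Q) := by
  by_cases e : zf Q = 0
  · rw [(ker h).2.2.2 e]; simp [zf0]
  rw [← map_mul, ← add_sub_cancel (m * zf Q) (zf (m • Q))]
  refine v.map_add_eq_of_lt_left ((nsm h m).2.2.trans_lt ?_)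
  rw [map_mul, pow_succ]
  exact mul_lt_mul_of_pos_right k (v.pos_iff.2 e)

theorem tor {Q : Pt A B} (h : KerV v Q) {m : ℕ} (k : v (zf Q) ^ 2 < v m) (e : m • Q = 0) :
    Q = 0 := by
  have := vmul h k
  rw [e, zf0, map_zero, eq_comm, mul_eq_zero, or_iff_right (zero_le'.trans_lt k).ne',
    _root_.map_eq_zero] at this
  exact (ker h).2.2.2 this

theorem vev {f : Qb[X]} {R : Γ} (h : ∀ r, f.IsRoot r → v r ≤ R) :
    ∃ (c : Γ) (k : ℕ), ∀ x, R < v x → v (f.eval x) = c * v x ^ k :=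
  ⟨v f.leadingCoeff, f.roots.card, fun x k => by
    rw [(IsAlgClosed.splits f).eval_eq_prod_roots, map_mul, map_multiset_prod, Multiset.map_map,
      Multiset.map_congr (f := v ∘ fun a => x - a) rfl (g := fun _ => v x) fun a j =>
        v.map_sub_eq_of_lt_left ((h a (isRoot_of_mem_roots j)).trans_lt k),
      Multiset.map_const', Multiset.prod_replicate]⟩

theorem vx {Q : Pt A B} (h : KerV v Q) (a : Q ≠ 0) : v (xp Q) * v (zf Q) ^ 2 = 1 := by
  rcases Q with _ | ⟨x, y, h'⟩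
  · exact absurd rfl a
  · exact (bas h' (not_le.1 h)).2.2

/-- **division in the formal group** -/
theorem dvm (hD : 4 * A ^ 3 + 27 * B ^ 2 ≠ 0) {y : Pt A B} (h : KerV v y) {m : ℕ}
    (hm : v (zf y) ^ 2 < v m ^ 3) : ∃ w, KerV v w ∧ m • w = y ∧ v (zf w) ^ 2 < v m := by
  have μ0 : 0 < v m := zero_lt_iff.2 fun z => by simp [z] at hm
  have μ1 : 1 ≤ (v m)⁻¹ := (one_le_inv₀ μ0).2 (vn m)
  by_cases y0 : y = 0
  · exact ⟨0, trivial, (nsmul_zero m).trans y0.symm, by simpa [zf0] using μ0⟩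
  obtain ⟨f, g, hf⟩ := (Bx.ex_mp hD m).1
  have s : (v m)⁻¹ < v (xp y * m ^ 2) := by
    rw [inv_lt_iff_one_lt_mul₀ μ0, map_mul, map_pow, mul_assoc, ← pow_succ, ← vx h y0]
    exact mul_lt_mul_of_pos_left hm (zero_lt_iff.2 (left_ne_zero_of_mul_eq_one (vx h y0)))
  have key : ∀ x, (v m)⁻¹ < v x → ∃ (P : Pt A B) (ρ : Qb), KerV v P ∧ v (zf P) ^ 2 < v m ∧
      m • P ≠ 0 ∧ xp (m • P) = ρ * f.eval x ∧ 1 = ρ * g.eval x ∧
      v m ^ 2 * v (f.eval x) = v x * v (g.eval x) := by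
    intro x j
    obtain ⟨y, k⟩ := exists_pt (L := Qb) two_ne_zero (hD' hD) x
    obtain ⟨ρ, r, a, b⟩ := hf _ (Point.some_ne_zero k)
    have c : KerV v (.some x y k : Pt A B) := not_le.2 (μ1.trans_lt j)
    have e := vx c (Point.some_ne_zero k)
    rw [xp_some] at a b e
    have i : v (zf (.some x y k : Pt A B)) ^ 2 < v m := by
      rw [inv_lt_iff_one_lt_mul₀ μ0, ← e] at j
      exact lt_of_mul_lt_mul_left j zero_le'
    have d := mt (tor c i) (Point.some_ne_zero k)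
    have e' := vx (nsm c m).1 d
    rw [Bx.zp1 d] at b
    refine ⟨_, ρ, c, i, d, a, b, ?_⟩
    have b' := congrArg v b
    rw [vmul c i, a, map_mul] at e'
    rw [map_one, map_mul] at b'
    generalize v (zf (.some x y k : Pt A B)) = z at e e'
    calc _ = v m ^ 2 * v (f.eval x) * (v x * z ^ 2) * (v ρ * v (g.eval x)) := by
          rw [e, ← b', mul_one, mul_one]
      _ = v ρ * v (f.eval x) * (v m * z) ^ 2 * (v x * v (g.eval x)) := by
          rw [mul_pow]; ac_rfl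
      _ = _ := by rw [e', one_mul]
  have g0 : ∀ x, (v m)⁻¹ < v x → g.eval x ≠ 0 := fun x j e => by
    obtain ⟨-, ρ, -, -, -, -, d, -⟩ := key x j
    rw [e, mul_zero] at d
    exact one_ne_zero d
  by_contra! k
  obtain ⟨β, i, hβ⟩ := vev (v := v) (f := f - C (xp y) * g) fun x e => not_lt.1 fun j => by
    obtain ⟨P, ρ, a, q, b, c, d, -⟩ := key x j
    rw [IsRoot.def, eval_sub, eval_mul, eval_C] at e
    rcases xp_eq b y0 (c.trans (by linear_combination ρ * e - xp y * d)) with e | e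
    · exact (k P a e).not_gt q
    · exact (k (-P) (kerV_neg.2 a) (by rw [neg_nsmul, e, neg_neg])).not_gt (by
        rwa [zf_neg, Valuation.map_neg])
  obtain ⟨γ, j, hγ⟩ := vev (v := v) (f := g) fun x e => not_lt.1 fun j => g0 x j e
  have μ2 := pow_pos μ0 2
  have cmp : ∀ x, (v m)⁻¹ < v x → 0 < γ * v x ^ j ∧
      (v (xp y * m ^ 2) < v x → v m ^ 2 * β * v x ^ i = v x * (γ * v x ^ j)) ∧
      (v x < v (xp y * m ^ 2) → v m ^ 2 * β * v x ^ i = v (xp y * m ^ 2) * (γ * v x ^ j)) := by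
    intro x a
    obtain ⟨-, -, -, -, -, -, -, e⟩ := key x a
    have b := hβ x a
    have c := hγ x a
    have d : 0 < v (g.eval x) := v.pos_iff.2 (g0 x a)
    have q : v m ^ 2 * v (xp y * g.eval x) = v (xp y * m ^ 2) * v (g.eval x) := by
      rw [map_mul, map_mul, map_pow]; ac_rfl
    rw [eval_sub, eval_mul, eval_C] at b
    rw [mul_assoc, ← b, ← c]
    refine ⟨d, fun z => ?_, fun z => ?_⟩
    · rw [v.map_sub_eq_of_lt_left (lt_of_mul_lt_mul_left (a := v m ^ 2) (by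
        rw [e, q]; exact mul_lt_mul_of_pos_right z d) zero_le'), e]
    · rw [v.map_sub_eq_of_lt_right (lt_of_mul_lt_mul_left (a := v m ^ 2) (by
        rw [e, q]; exact mul_lt_mul_of_pos_right z d) zero_le'), q]
  obtain ⟨t, ht⟩ := IsAlgClosed.exists_pow_nat_eq (xp y * m) two_pos
  have t2 : v t ^ 2 = v (xp y * m ^ 2) * (v m)⁻¹ := by
    rw [← map_pow, ht, sq, ← mul_assoc, map_mul v (xp y * m), mul_inv_cancel_right₀ μ0.ne']
  generalize xp y * m ^ 2 = u at s cmp t2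
  have u1 := μ1.trans_lt s
  have u0 := zero_lt_one.trans u1
  have big : ∀ n, 1 < n → v m ^ 2 * β * (v u ^ i) ^ n = γ * (v u ^ (j + 1)) ^ n := fun n hn => by
    have a : v u < v (u ^ n) := map_pow v u n ▸ lt_self_pow₀ u1 hn
    have := (cmp _ (s.trans a)).2.1 a
    rw [map_pow] at this
    rw [pow_right_comm, this, pow_right_comm _ (j + 1), pow_succ' _ j, mul_left_comm]
  have a1 : (v m)⁻¹ < v t := lt_of_pow_lt_pow_left₀ 2 zero_le' (by
    rw [t2, sq]; exact mul_lt_mul_of_pos_right s (inv_pos.2 μ0))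
  have a2 : v t < v u := lt_of_pow_lt_pow_left₀ 2 zero_le' (by
    rw [t2, sq]; exact mul_lt_mul_of_pos_left s u0)
  obtain ⟨d, -, e⟩ := cmp t a1
  replace e := e a2
  have γ0 : γ ≠ 0 := left_ne_zero_of_mul d.ne'
  have w0 := pow_ne_zero 2 (pow_ne_zero (j + 1) u0.ne')
  have e2 := big 2 (by norm_num)
  have e3 := big 3 (by norm_num)
  rw [pow_succ _ 2, ← mul_assoc, e2, pow_succ _ 2, ← mul_assoc γ,
    mul_right_inj' (mul_ne_zero γ0 w0)] at e3
  obtain rfl := (pow_right_strictMono₀ u1).injective e3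
  rw [mul_left_inj' w0] at e2
  rw [e2, pow_succ', mul_left_comm, mul_left_inj' d.ne'] at e
  exact a2.ne e

theorem sq_lt {Q : Pt A B} (h : KerV v Q) {M : Γ} (p : 0 < M) (k : v (zf Q) ≤ M) :
    v (zf Q) ^ 2 < M := by
  rw [sq]
  exact (mul_le_mul_left k _).trans_lt (mul_lt_of_lt_one_right p (ker h).1)

end val

variable [Pp]

/-- the kernel of the reduction and its filtration -/
def FG : Prop := ∀ (A B : ℤ), 4 * A ^ 3 + 27 * B ^ 2 ≠ 0 → ∀ P : Ideal (𝓞 Qb), P.IsPrime → P ≠ ⊥ →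
  K1 P (0 : Pt A B) ∧ (∀ y y' : Pt A B, K1 P y → K1 P y' → K1 P (y - y')) ∧
  (∀ g : GQ, (∀ x : 𝓞 Qb, g • x ∈ P ↔ x ∈ P) → ∀ y : Pt A B, K1 P y → K1 P (ga g y)) ∧
  ((pp : 𝓞 Qb) ∉ P → ∀ y : Pt A B, K1 P y → ∃! w, K1 P w ∧ pp • w = y) ∧
  (∀ z, Zp P z → ∃! y : Pt A B, K1 P y ∧ zf y = z) ∧
  ∀ κ : ℕ, κ ≠ 0 →
    (∀ y y' : Pt A B, Fk P κ y → Fk P κ y' → Fk P κ (y - y') ∧
      Zp P (zf (y - y') / κ - (zf y / κ - zf y' / κ))) ∧
    (∀ g : GQ, (∀ x : 𝓞 Qb, g • x ∈ P ↔ x ∈ P) → ∀ y : Pt A B, Fk P κ y → Fk P κ (ga g y)) ∧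
    (pp ∣ κ → ∀ y : Pt A B, (Fk P κ y → Fk P (pp * κ) (pp • y) ∧ (pp • y = 0 → y = 0)) ∧
      (Fk P (pp * κ) y → ∃ w, Fk P κ w ∧ pp • w = y ∧ Zp P (zf w / κ - zf y / (pp * κ : ℕ))))

/-- row FG -/
theorem fg : FG := by
  intro A B hD P hP h0
  obtain ⟨a0, a1, a2, -, a4, a5⟩ := P004F.Qx.fg A B hD P hP h0
  obtain ⟨O, hO⟩ := ex_O hP h0
  have p2 : 0 < O.valuation pp := zero_lt_iff.2 (by simpa using pp_ne)
  refine ⟨a0, a1, a2, fun h2 y hy => ?_, a4, fun κ hκ => ⟨(a5 κ hκ).1, (a5 κ hκ).2.1,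
    fun h2 y => ?_⟩⟩
  · have u : O.valuation pp = 1 := le_antisymm (vn _) (not_lt.1 fun k => h2 ((hO.mem hP pp).1 k))
    have l : ∀ {y : Pt A B}, K1 P y → O.valuation (zf y) ^ 2 < 1 := fun k =>
      pow_lt_one₀ zero_le' (ker ((hO.k1 _).1 k)).1 two_ne_zero
    obtain ⟨w, a, b, -⟩ := dvm hD ((hO.k1 _).1 hy) (m := pp) (by rw [u, one_pow]; exact l hy)
    rw [← hO.k1] at a
    refine ⟨w, ⟨a, b⟩, fun w' k => sub_eq_zero.1 (tor ((hO.k1 _).1 (a1 _ _ k.1 a)) (m := pp)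
      (u ▸ l (a1 _ _ k.1 a)) ?_)⟩
    rw [nsmul_sub, k.2, b, sub_self]
  have pκ : 0 < O.valuation κ := zero_lt_iff.2 (by simpa using hκ)
  have l2 : O.valuation κ ≤ O.valuation pp := by
    obtain ⟨m, rfl⟩ := h2
    simpa using val_mul_le (le_refl (O.valuation pp)) (vn m)
  rw [hO.fk hκ, hO.fk (mul_ne_zero pp_ne hκ), hO.fk (mul_ne_zero pp_ne hκ), Nat.cast_mul, map_mul]
  refine ⟨fun a => ?_, fun a => ?_⟩
  · have q := sq_lt a.1 p2 (a.2.trans l2)
    exact ⟨⟨(nsm a.1 _).1, (vmul a.1 q).trans_le (mul_le_mul_right a.2 _)⟩, tor a.1 q⟩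
  obtain ⟨w, b, rfl, c⟩ := dvm hD a.1 (m := pp) (by
    rw [sq, pow_succ, sq]
    refine (mul_le_mul_left (a.2.trans (mul_le_mul_right l2 _)) _).trans_lt
      (mul_lt_mul_of_pos_left ?_ (mul_pos p2 p2))
    rcases (l2.trans (vn (v := O.valuation) pp)).lt_or_eq with k | k
    · exact a.2.trans_lt (mul_lt_of_lt_one_right p2 k)
    · exact (ker a.1).1.trans_le (k.ge.trans l2))
  have d := le_of_mul_le_mul_left ((vmul b c).ge.trans a.2) p2
  refine ⟨w, (hO.fk hκ _).2 ⟨b, d⟩, rfl, ?_⟩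
  have e : zf w / κ - zf (pp • w) / (pp * κ) = -((zf (pp • w) - pp * zf w) / (pp * κ)) := by
    have : (κ : Qb) ≠ 0 := by simpa using hκ
    have : (pp : Qb) ≠ 0 := by simpa using pp_ne
    field_simp
    ring
  rw [hO.zp, e, Valuation.map_neg, map_div₀, map_mul, div_lt_one₀ (mul_pos p2 pκ)]
  refine (nsm b _).2.2.trans_lt ?_
  rw [pow_succ]
  exact (mul_le_mul_right d _).trans_lt (mul_lt_mul_of_pos_right c pκ)

end Vale.Agent.P014Y.F.Qx
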